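import Vale.Agent.P067.Bridge.Count

/-! Expansion of chamber cochains gives a coboundary expander of bounded degree. -/

namespace Vale.Agent.P067.Bridge

open Finset

variable {n : ℕ} {Ω : Type} [Fintype Ω]
variable {R : Finset (Fin n) → Ω → Ω → Prop} {B C : ℕ} {d : ℕ}

/-- Below the top degree every chamber cochain is within `C` times the mass of its coboundary of a
coboundary; in degree one these are the constants. -/
def ExpandsUpTo {Ω : Type} (R : Finset (Fin n) → Ω → Ω → Prop) (d C : ℕ) : Prop :=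
  ∀ i < d, ∀ f, IsCochain R (i + 1) f →
    ∃ g, IsCochain R i g ∧ mass (f + delta g) ≤ C * mass (delta f)

/-- The expansion constant of the complex. -/
noncomputable def bridgeEps (n d B C : ℕ) : ℝ :=
  ((2 ^ n * B * C * B * 2 ^ (d + 1) + 1 : ℕ) : ℝ)⁻¹

theorem bridgeEps_pos (n d B C : ℕ) : 0 < bridgeEps n d B C :=
  inv_pos.2 (Nat.cast_pos.2 (Nat.succ_pos _))

theorem add_delta_zero {f g : Finset (Fin n) → Ω → ZMod 2} {m : ℕ} (hf : IsCochain R (m + 1) f)
    (hg : IsCochain R m g) {T : Finset (Fin n)} (hT : T.card ≠ m + 1) (x : Ω) :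
    (f + delta g) T x = 0 := by
  rw [Pi.add_apply, Pi.add_apply, hf.1 T x hT, zero_add, delta]
  refine sum_eq_zero fun t ht => hg.1 _ x ?_
  rw [card_erase_of_mem ht]
  have := card_pos.2 ⟨t, ht⟩
  omega

variable (hR : GoodSys R B) (hn : d + 1 ≤ n)
include hR hn

theorem isExpander_facets [Nonempty Ω] (hE : ExpandsUpTo R d C) :
    IsExpander (facets R d) d (bridgeEps n d B C) := by
  classical
  intro i hid f
  obtain ⟨g, hg, hm⟩ := hE i hid _ (down_isCochain hR hn hid.le f)
  have key : ∀ b : Cochain (facets R d) i, down (f + b) = down f + delta g →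
      bridgeEps n d B C * cnorm (facets R d) d (f + b) ≤
        cnorm (facets R d) d (cobd (facets R d) i f) := by
    intro b hb
    have e1 := cnorm_le hR hid.le (f + b)
    have e2 := le_cnorm (R := R) (show i + 1 ≤ d by omega) (cobd (facets R d) i f)
    have e3 : (univ.filter fun σ => (f + b) σ ≠ 0).card ≤
        C * B * (univ.filter fun σ => cobd (facets R d) i f σ ≠ 0).card := by
      refine (supp_le_mass hR hid.le hn (f + b)).trans ?_
      rw [hb]
      refine hm.trans ?_
      rw [mul_assoc, ← down_cobd hR hn (by omega) f]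
      exact Nat.mul_le_mul le_rfl (mass_le_supp hR hn (by omega) _)
    set s₁ := (univ.filter fun σ => (f + b) σ ≠ 0).card
    set s₂ := (univ.filter fun σ => cobd (facets R d) i f σ ≠ 0).card
    set F := ((facets R d).card : ℝ)
    have hF : 0 ≤ F := Nat.cast_nonneg _
    have he := bridgeEps_pos n d B C
    refine (mul_le_mul_of_nonneg_left e1 he.le).trans (le_trans ?_ e2)
    have h3 : (s₁ : ℝ) * ((2 ^ n * B : ℕ) : ℝ) * ((2 ^ (d + 1) : ℕ) : ℝ) ≤
        ((2 ^ n * B * C * B * 2 ^ (d + 1) + 1 : ℕ) : ℝ) * s₂ := by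
      have h4 : s₁ * (2 ^ n * B) * 2 ^ (d + 1) ≤ (2 ^ n * B * C * B * 2 ^ (d + 1) + 1) * s₂ :=
        calc s₁ * (2 ^ n * B) * 2 ^ (d + 1) ≤ (C * B * s₂) * (2 ^ n * B) * 2 ^ (d + 1) := by
              gcongr
          _ = (2 ^ n * B * C * B * 2 ^ (d + 1)) * s₂ := by ring
          _ ≤ _ := Nat.mul_le_mul_right _ (Nat.le_succ _)
      exact_mod_cast h4
    have hpos : (0 : ℝ) < ((2 ^ n * B * C * B * 2 ^ (d + 1) + 1 : ℕ) : ℝ) :=
      Nat.cast_pos.2 (Nat.succ_pos _)
    rcases hF.eq_or_lt with h0 | h0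
    · simp [← h0]
    rw [bridgeEps, ← mul_assoc, mul_one_div, mul_div_assoc', div_le_div_iff₀ h0 (by positivity)]
    calc ((2 ^ n * B * C * B * 2 ^ (d + 1) + 1 : ℕ) : ℝ)⁻¹ * (s₁ : ℝ) *
          ((2 ^ n * B : ℕ) : ℝ) * (((2 ^ (d + 1) : ℕ) : ℝ) * F)
        = ((2 ^ n * B * C * B * 2 ^ (d + 1) + 1 : ℕ) : ℝ)⁻¹ *
          ((s₁ : ℝ) * ((2 ^ n * B : ℕ) : ℝ) * ((2 ^ (d + 1) : ℕ) : ℝ)) * F := by ring
      _ ≤ ((2 ^ n * B * C * B * 2 ^ (d + 1) + 1 : ℕ) : ℝ)⁻¹ *
          (((2 ^ n * B * C * B * 2 ^ (d + 1) + 1 : ℕ) : ℝ) * s₂) * F := by gcongr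
      _ = (s₂ : ℝ) * F := by rw [← mul_assoc, inv_mul_cancel₀ hpos.ne', one_mul]
  have hdown : ∀ (b : Cochain (facets R d) i),
      (∀ T x, T.card = i + 1 → down b T x = delta g T x) → down (f + b) = down f + delta g := by
    intro b hb
    funext T x
    by_cases hT : T.card = i + 1
    · rw [Pi.add_apply, Pi.add_apply, ← hb T x hT, down_apply hR hn hid.le _ hT,
        down_apply hR hn hid.le _ hT, down_apply hR hn hid.le _ hT]
      rfl
    · rw [down_zero _ hT, add_delta_zero (down_isCochain hR hn hid.le f) hg hT]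
  cases i with
  | zero =>
    set x₀ := Classical.arbitrary Ω
    set c := g ∅ x₀
    refine ⟨c • fun _ => 1, Submodule.smul_mem _ c (Submodule.subset_span rfl), key _ (hdown _ ?_)⟩
    intro T x hT
    obtain ⟨t, rfl⟩ := card_eq_one.1 hT
    rw [down_apply hR hn hid.le _ hT, delta, sum_singleton, erase_singleton]
    show c * 1 = g ∅ x
    rw [mul_one]
    exact hg.2 ∅ x₀ x ((hR.inter _ _ _).2 fun t ht => absurd ht (notMem_empty t))
  | succ j =>
    set b₀ : Cochain (facets R d) j := up g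
    refine ⟨cobd (facets R d) j b₀, LinearMap.mem_range_self _ b₀, key _ (hdown _ ?_)⟩
    intro T x hT
    rw [down_cobd hR hn hid.le b₀]
    refine sum_congr rfl fun t ht => ?_
    have hc : (T.erase t).card = j + 1 := by rw [card_erase_of_mem ht, hT]; rfl
    rw [down_apply hR hn (by omega) b₀ hc]
    exact up_apply hR hg _

theorem isConn_facets [Nonempty Ω] (hd : 1 ≤ d) (hE : ExpandsUpTo R d C) :
    IsConn (facets R d) := by
  classical
  set link := fun a b : Fin (verts R).card => ∃ τ ∈ facets R d, a ∈ τ ∧ b ∈ τ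
  intro v w
  set f : Finset (Fin n) → Ω → ZMod 2 := fun T x =>
    if T.card = 1 ∧ ∃ t ∈ T, Relation.ReflTransGen link v (vtx R t x) then 1 else 0 with hf
  have hlink : ∀ (T : Finset (Fin n)), T.card ≤ d + 1 → ∀ x, ∀ t ∈ T, ∀ t' ∈ T,
      link (vtx R t x) (vtx R t' x) := by
    intro T hT x t ht t' ht'
    obtain ⟨T', hsub, hT'⟩ := Finset.exists_superset_card_eq (s := T) (n := d + 1) hT
      (by simpa using hn)
    exact ⟨face R T' x, face_mem_facets R hT' x,
      mem_image_of_mem (fun t => vtx R t x) (hsub ht),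
      mem_image_of_mem (fun t => vtx R t x) (hsub ht')⟩
  have hfc : IsCochain R 1 f := by
    refine ⟨fun T x hT => if_neg fun h => hT h.1, fun T x y h => ?_⟩
    have he : ∀ t ∈ T, vtx R t x = vtx R t y := fun t ht =>
      (vtx_eq_iff hR).2 ⟨rfl, ((hR.inter _ _ _).1 h) t ht⟩
    refine if_congr (and_congr_right fun _ => ?_) rfl rfl
    exact ⟨fun ⟨t, ht, h1⟩ => ⟨t, ht, he t ht ▸ h1⟩, fun ⟨t, ht, h1⟩ => ⟨t, ht, (he t ht).symm ▸ h1⟩⟩
  have hd0 : delta f = 0 := by
    funext T x
    show ∑ t ∈ T, f (T.erase t) x = 0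
    by_cases hT : T.card = 2
    · obtain ⟨a, b, hab, rfl⟩ := card_eq_two.1 hT
      rw [sum_pair hab, show ({a, b} : Finset (Fin n)).erase a = {b} by simp [hab],
        show ({a, b} : Finset (Fin n)).erase b = {a} by
          rw [Finset.pair_comm]; simp [Ne.symm hab]]
      have hiff : Relation.ReflTransGen link v (vtx R b x) ↔
          Relation.ReflTransGen link v (vtx R a x) := by
        have hT' : ({a, b} : Finset (Fin n)).card ≤ d + 1 := by omega
        exact ⟨fun h => h.tail (hlink _ hT' x b (by simp) a (by simp)),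
          fun h => h.tail (hlink _ hT' x a (by simp) b (by simp))⟩
      simp only [hf, card_singleton, mem_singleton, exists_eq_left, true_and, hiff]
      split_ifs <;> decide
    · refine sum_eq_zero fun t ht => hfc.1 _ x ?_
      rw [card_erase_of_mem ht]
      have := card_pos.2 ⟨t, ht⟩
      omega
  obtain ⟨g, hg, hm⟩ := hE 0 (by omega) f hfc
  rw [hd0, show mass (0 : Finset (Fin n) → Ω → ZMod 2) = 0 by simp [mass], mul_zero,
    Nat.le_zero, mass, Set.ncard_eq_zero (Set.toFinite _)] at hm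
  have hconst : ∀ t x, f {t} x + g ∅ (Classical.arbitrary Ω) = 0 := by
    intro t x
    have h : (f + delta g) {t} x = 0 := by
      by_contra h
      exact Set.eq_empty_iff_forall_notMem.1 hm ({t}, x) h
    rw [Pi.add_apply, Pi.add_apply, delta, sum_singleton, erase_singleton] at h
    rwa [hg.2 ∅ (Classical.arbitrary Ω) x ((hR.inter _ _ _).2 fun t ht => absurd ht (notMem_empty t))]
  obtain ⟨t₀, x₀, h₀⟩ := vtx_surjective R v
  obtain ⟨t, x, rfl⟩ := vtx_surjective R w
  have h1 : f {t₀} x₀ = 1 := if_pos ⟨card_singleton _, t₀, mem_singleton_self _,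
    by rw [h₀]⟩
  have h2 := (hconst t x).trans (hconst t₀ x₀).symm
  rw [add_left_inj, h1] at h2
  rw [hf] at h2
  simp only [card_singleton, true_and, mem_singleton, exists_eq_left] at h2
  by_contra hno
  rw [if_neg hno] at h2
  exact zero_ne_one h2

/-- The complex of a chamber system with expansion below the top degree. -/
theorem skeleton_expander [Nonempty Ω] (hd : 1 ≤ d) (hE : ExpandsUpTo R d C) :
    ∃ N, Fintype.card Ω ≤ B * N ∧ ∃ F : Finset (Finset (Fin N)), IsPure F d ∧ IsConn F ∧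
      DegreeAtMost F (2 ^ n * B) ∧ IsExpander F d (bridgeEps n d B C) :=
  ⟨(verts R).card, card_le_verts hR (by omega), facets R d, isPure_facets hR hn,
    isConn_facets hR hn hd hE, degree_facets hR, isExpander_facets hR hn hE⟩

omit hR hn in
/-- A family of chamber systems with uniform constants and unboundedly many chambers answers the
question. -/
theorem main_of_family
    (h : ∀ d : ℕ, 1 ≤ d → ∃ n B C : ℕ, d + 1 ≤ n ∧ ∀ M : ℕ, ∃ (Ω : Type) (_ : Fintype Ω)
      (R : Finset (Fin n) → Ω → Ω → Prop),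
      GoodSys R B ∧ M ≤ Fintype.card Ω ∧ ExpandsUpTo R d C) :
    MainStatement := by
  intro d hd
  obtain ⟨n, B, C, hn, hfam⟩ := h d hd
  refine ⟨2 ^ n * B, bridgeEps n d B C, bridgeEps_pos n d B C, fun N => ?_⟩
  obtain ⟨Ω, hΩ, R, hR, hM, hE⟩ := hfam (B * N + 1)
  have : Nonempty Ω := Fintype.card_pos_iff.1 (by omega)
  obtain ⟨N', hcard, hF⟩ := skeleton_expander hR hn hd hE
  exact ⟨N', (Nat.lt_of_mul_lt_mul_left (a := B) (by omega)).le, hF⟩

omit hR hn in
/-- Cosets of subgroups which are intersections of small subgroups form such a chamber system. -/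
theorem goodSys_cosetRel {G : Type} [Group G] [Fintype G] (K : Finset (Fin n) → Subgroup G)
    (hinter : ∀ T g, g ∈ K T ↔ ∀ t ∈ T, g ∈ K {t})
    (hsmall : ∀ t, Nat.card ↥(K {t}) ≤ B) : GoodSys (cosetRel K) B := by
  refine ⟨fun t => ⟨fun x => ?_, fun {x y} h => ?_, fun {x y z} h h' => ?_⟩,
    fun T x y => hinter T _, fun t x => ?_⟩
  · show x⁻¹ * x ∈ K {t}
    rw [inv_mul_cancel]
    exact one_mem _
  · show y⁻¹ * x ∈ K {t}
    have := inv_mem (show x⁻¹ * y ∈ K {t} from h)
    rwa [mul_inv_rev, inv_inv] at this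
  · show x⁻¹ * z ∈ K {t}
    have := mul_mem (show x⁻¹ * y ∈ K {t} from h) (show y⁻¹ * z ∈ K {t} from h')
    rwa [mul_assoc, mul_inv_cancel_left] at this
  · refine le_trans (le_trans (le_of_eq ?_) (Set.ncard_image_le (f := fun g => x * g)
      (s := (K {t} : Set G)) (Set.toFinite _))) (le_trans (le_of_eq ?_) (hsmall t))
    · congr 1
      ext y
      simp only [cosetRel, Set.mem_ofPred_eq, Set.mem_image, SetLike.mem_coe]
      exact ⟨fun h => ⟨x⁻¹ * y, h, mul_inv_cancel_left x y⟩,
        fun ⟨g, hg, he⟩ => by rw [← he, inv_mul_cancel_left]; exact hg⟩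
    · exact (Nat.card_coe_set_eq _).symm

end Vale.Agent.P067.Bridge
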