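import Vale.Agent.P067.Bridge.Skeleton

/-! Cochains of the complex of a chamber system and chamber cochains: coboundaries and weights. -/

namespace Vale.Agent.P067.Bridge

open Finset

variable {n : ℕ} {Ω : Type} [Fintype Ω]
variable {R : Finset (Fin n) → Ω → Ω → Prop} {B : ℕ}

/-- A cochain of the complex as a chamber cochain. -/
noncomputable def down {d i : ℕ} (f : Cochain (facets R d) i) :
    Finset (Fin n) → Ω → ZMod 2 := by
  classical exact fun T x =>
    if h : T.card = i + 1 ∧ face R T x ∈ faces (facets R d) i then f ⟨_, h.2⟩ else 0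

/-- A chamber cochain as a cochain of the complex. -/
noncomputable def up {d i : ℕ} (g : Finset (Fin n) → Ω → ZMod 2) :
    Cochain (facets R d) i := by
  classical exact fun σ =>
    if h : ∃ a : Finset (Fin n) × Ω, face R a.1 a.2 = σ.1 then g h.choose.1 h.choose.2 else 0

variable (hR : GoodSys R B) {d : ℕ} (hn : d + 1 ≤ n)
include hR hn

theorem down_apply {i : ℕ} (hi : i ≤ d) (f : Cochain (facets R d) i) {T : Finset (Fin n)}
    (hT : T.card = i + 1) (x : Ω) :
    down f T x = f ⟨face R T x, face_mem_faces hR hn hi hT x⟩ := by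
  simp only [down]
  rw [dif_pos ⟨hT, face_mem_faces hR hn hi hT x⟩]

omit hR hn in
theorem down_zero {i : ℕ} (f : Cochain (facets R d) i) {T : Finset (Fin n)}
    (hT : T.card ≠ i + 1) (x : Ω) : down f T x = 0 := by
  simp only [down]
  rw [dif_neg fun h => hT h.1]

theorem down_isCochain {i : ℕ} (hi : i ≤ d) (f : Cochain (facets R d) i) :
    IsCochain R (i + 1) (down f) := by
  refine ⟨fun T x h => down_zero f h x, fun T x y h => ?_⟩
  by_cases hT : T.card = i + 1
  · rw [down_apply hR hn hi f hT, down_apply hR hn hi f hT]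
    exact congrArg f (Subtype.ext ((face_eq_iff hR).2 ⟨rfl, h⟩))
  · rw [down_zero f hT, down_zero f hT]

omit hn in
theorem up_apply {i : ℕ} {g : Finset (Fin n) → Ω → ZMod 2} {m : ℕ} (hg : IsCochain R m g)
    {T : Finset (Fin n)} {x : Ω} (h : face R T x ∈ faces (facets R d) i) :
    (up g : Cochain (facets R d) i) ⟨face R T x, h⟩ = g T x := by
  have hex : ∃ a : Finset (Fin n) × Ω, face R a.1 a.2 = face R T x := ⟨(T, x), rfl⟩
  simp only [up]
  rw [dif_pos hex]
  obtain ⟨h1, h2⟩ := (face_eq_iff hR).1 hex.choose_spec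
  exact (hg.2 _ _ _ h2).trans (by rw [h1])

theorem cobd_apply {i : ℕ} (hi : i + 1 ≤ d) (f : Cochain (facets R d) i) {T : Finset (Fin n)}
    (hT : T.card = i + 2) (x : Ω) :
    cobd (facets R d) i f ⟨face R T x, face_mem_faces hR hn hi hT x⟩ = delta (down f) T x := by
  classical
  have hc : ∀ t ∈ T, (T.erase t).card = i + 1 := fun t ht => by rw [card_erase_of_mem ht, hT]; rfl
  show (∑ σ : ↥(faces (facets R d) i), if σ.1 ⊆ face R T x then f σ else 0) = _
  rw [← sum_filter, delta]
  refine (Finset.sum_bij (fun t ht => ⟨face R (T.erase t) x,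
    face_mem_faces hR hn (by omega) (hc t ht) x⟩) ?_ ?_ ?_ ?_).symm
  · exact fun t _ => mem_filter.2 ⟨mem_univ _, image_subset_image (erase_subset _ _)⟩
  · intro t ht t' ht' he
    obtain ⟨h1, -⟩ := (face_eq_iff hR).1 (congrArg Subtype.val he)
    by_contra h
    exact (mem_erase.1 (h1.symm ▸ mem_erase.2 ⟨h, ht⟩ : t ∈ T.erase t)).1 rfl
  · intro σ hσ
    obtain ⟨S, y, hS, hSσ⟩ := exists_of_mem_faces hR σ.2
    have hsub := (mem_filter.1 hσ).2
    rw [← hSσ, face_subset hR] at hsub
    obtain ⟨t, ht⟩ := Finset.card_eq_one.1 (show (T \ S).card = 1 by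
      rw [card_sdiff_of_subset hsub.1, hT, hS]; omega)
    have htT : t ∈ T ∧ t ∉ S := mem_sdiff.1 (ht.symm ▸ mem_singleton_self t)
    refine ⟨t, htT.1, Subtype.ext ?_⟩
    show face R (T.erase t) x = σ.1
    rw [← hSσ]
    refine ((face_eq_iff hR).2 ⟨?_, hsub.2⟩).symm
    refine eq_of_subset_of_card_le (fun a ha => mem_erase.2 ⟨?_, hsub.1 ha⟩) ?_
    · rintro rfl
      exact htT.2 ha
    · rw [hc t htT.1, hS]
  · exact fun t ht => down_apply hR hn (by omega) f (hc t ht) x

theorem down_cobd {i : ℕ} (hi : i + 1 ≤ d) (f : Cochain (facets R d) i) :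
    down (cobd (facets R d) i f) = delta (down f) := by
  funext T x
  by_cases hT : T.card = i + 2
  · rw [down_apply hR hn hi _ hT, cobd_apply hR hn hi f hT]
  · rw [down_zero _ hT, delta]
    refine (sum_eq_zero fun t ht => down_zero f ?_ x).symm
    rw [card_erase_of_mem ht]
    have := card_pos.2 ⟨t, ht⟩
    omega

omit hn in
/-- The support of a cochain of the complex is at most as large as the chamber support. -/
theorem supp_le_mass {i : ℕ} (hi : i ≤ d) (hn : d + 1 ≤ n) (f : Cochain (facets R d) i) :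
    (univ.filter fun σ => f σ ≠ 0).card ≤ mass (down f) := by
  classical
  rw [mass, Set.ncard_eq_toFinset_card']
  have hex : ∀ σ : ↥(faces (facets R d) i), ∃ a : Finset (Fin n) × Ω,
      a.1.card = i + 1 ∧ face R a.1 a.2 = σ.1 := fun σ => by
    obtain ⟨T, x, h⟩ := exists_of_mem_faces hR σ.2
    exact ⟨(T, x), h⟩
  choose a ha1 ha2 using hex
  refine card_le_card_of_injOn a (fun σ hσ => ?_) fun σ _ σ' _ h => ?_
  · simp only [coe_filter, mem_univ, true_and, Set.mem_ofPred_eq] at hσ
    simp only [Set.coe_toFinset, Set.mem_ofPred_eq]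
    rw [down_apply hR hn hi f (ha1 σ)]
    simp only [ha2 σ]
    exact hσ
  · exact Subtype.ext ((ha2 σ).symm.trans ((congrArg (fun b => face R b.1 b.2) h).trans (ha2 σ')))

/-- The chamber support is at most `B` times the support. -/
theorem mass_le_supp {i : ℕ} (hi : i ≤ d) (f : Cochain (facets R d) i) :
    mass (down f) ≤ B * (univ.filter fun σ => f σ ≠ 0).card := by
  classical
  rw [mass, Set.ncard_eq_toFinset_card']
  refine le_trans ?_ (Nat.mul_le_mul le_rfl (le_of_eq
    (card_image_of_injective (univ.filter fun σ => f σ ≠ 0) Subtype.val_injective)))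
  refine le_trans (Finset.card_le_mul_card_image (f := fun a : Finset (Fin n) × Ω => face R a.1 a.2) _ B fun σ hσ => ?_)
    (Nat.mul_le_mul le_rfl (card_le_card fun σ hσ => ?_))
  · obtain ⟨⟨T, x⟩, hTx, rfl⟩ := mem_image.1 hσ
    have hT : T.Nonempty := by
      rw [Set.mem_toFinset, Set.mem_ofPred_eq] at hTx
      by_contra h
      exact hTx (down_zero f (by simp [not_nonempty_iff_eq_empty.1 h]) x)
    refine (card_le_card_of_injOn (t := univ.filter fun y => R T x y) Prod.snd (fun a ha => ?_)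
      fun a ha b hb h => ?_).trans (le_trans (le_of_eq ?_) (small_of_nonempty hR hT x))
    · simp only [coe_filter, Set.mem_ofPred_eq] at ha
      obtain ⟨h1, h2⟩ := (face_eq_iff hR).1 ha.2.symm
      simpa using h2
    · simp only [coe_filter, Set.mem_ofPred_eq] at ha hb
      exact Prod.ext (((face_eq_iff hR).1 (ha.2.trans hb.2.symm)).1) h
    · rw [← Set.ncard_coe_finset]
      simp
  · obtain ⟨⟨T, x⟩, hTx, rfl⟩ := mem_image.1 hσ
    rw [Set.mem_toFinset, Set.mem_ofPred_eq] at hTx
    have hT : T.card = i + 1 := by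
      by_contra h
      exact hTx (down_zero f h x)
    rw [down_apply hR hn hi f hT] at hTx
    exact mem_image.2 ⟨⟨_, face_mem_faces hR hn hi hT x⟩, mem_filter.2 ⟨mem_univ _, hTx⟩, rfl⟩

omit hR hn in
theorem cnorm_eq {i : ℕ} (f : Cochain (facets R d) i) :
    cnorm (facets R d) d f =
      ∑ σ ∈ univ.filter (fun σ => f σ ≠ 0), weight (facets R d) d σ.1 := by
  rw [cnorm, sum_filter]
  exact sum_congr rfl fun σ _ => by by_cases h : f σ = 0 <;> simp [h]

omit hn in
theorem cnorm_le {i : ℕ} (hi : i ≤ d) (f : Cochain (facets R d) i) :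
    cnorm (facets R d) d f ≤
      ((univ.filter fun σ => f σ ≠ 0).card : ℝ) * ((2 ^ n * B : ℕ) / ((facets R d).card : ℝ)) := by
  rw [cnorm_eq, ← nsmul_eq_mul]
  refine sum_le_card_nsmul _ _ _ fun σ _ => ?_
  obtain ⟨h1, τ, hτ, -⟩ := mem_filter.1 σ.2
  have hcard : σ.1.card = i + 1 := (mem_powersetCard.1 h1).2
  obtain ⟨v, hv⟩ := card_pos.1 (show 0 < σ.1.card by omega)
  have hF : (0 : ℝ) < (facets R d).card := by exact_mod_cast card_pos.2 ⟨τ, hτ⟩
  have hch : (1 : ℝ) ≤ ((d + 1).choose σ.1.card : ℝ) := by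
    exact_mod_cast Nat.choose_pos (by omega)
  rw [weight]
  refine div_le_div₀ (by positivity) ?_ hF (le_mul_of_one_le_left hF.le hch)
  exact_mod_cast (card_le_card (monotone_filter_right _ fun τ _ (h : σ.1 ⊆ τ) => h hv)).trans
    (degree_facets (hR := hR) v)

omit hR hn in
theorem le_cnorm {i : ℕ} (hi : i ≤ d) (f : Cochain (facets R d) i) :
    ((univ.filter fun σ => f σ ≠ 0).card : ℝ) *
      (1 / ((2 ^ (d + 1) : ℕ) * ((facets R d).card : ℝ))) ≤ cnorm (facets R d) d f := by
  rw [cnorm_eq, ← nsmul_eq_mul]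
  refine card_nsmul_le_sum _ _ _ fun σ _ => ?_
  obtain ⟨h1, τ, hτ, hsub⟩ := mem_filter.1 σ.2
  have hcard : σ.1.card = i + 1 := (mem_powersetCard.1 h1).2
  have hF : (0 : ℝ) < (facets R d).card := by exact_mod_cast card_pos.2 ⟨τ, hτ⟩
  have hch : (0 : ℝ) < ((d + 1).choose σ.1.card : ℝ) := by
    exact_mod_cast Nat.choose_pos (by omega)
  rw [weight]
  refine div_le_div₀ (Nat.cast_nonneg _) ?_ (by positivity)
    (mul_le_mul_of_nonneg_right (by exact_mod_cast Nat.choose_le_two_pow _ _) hF.le)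
  exact_mod_cast card_pos.2 ⟨τ, mem_filter.2 ⟨hτ, hsub⟩⟩

end Vale.Agent.P067.Bridge
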