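import Vale.Agent.P067.Final

/-! The simplicial complex of a chamber system: vertices are the classes of the types, and the
facets are the sets of classes of one chamber over `d + 1` types. -/

namespace Vale.Agent.P067.Bridge

open Finset

variable {n : ℕ} {Ω : Type} [Fintype Ω]

/-- The classes of a set of types are the intersections of the classes of its members, which are
equivalence classes of at most `B` chambers. -/
structure GoodSys (R : Finset (Fin n) → Ω → Ω → Prop) (B : ℕ) : Prop where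
  equiv : ∀ t, Equivalence (R {t})
  inter : ∀ T x y, R T x y ↔ ∀ t ∈ T, R {t} x y
  small : ∀ t x, {y | R {t} x y}.ncard ≤ B

variable (R : Finset (Fin n) → Ω → Ω → Prop)

/-- The class of a chamber for one type. -/
noncomputable def cls (t : Fin n) (x : Ω) : Finset Ω := by
  classical exact univ.filter (R {t} x)

theorem mem_cls {t : Fin n} {x y : Ω} : y ∈ cls R t x ↔ R {t} x y := by
  classical simp [cls]

/-- The vertices: a type with one of its classes. -/
noncomputable def verts : Finset (Fin n × Finset Ω) := by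
  classical exact univ.image fun a : Fin n × Ω => (a.1, cls R a.1 a.2)

theorem mem_verts (t : Fin n) (x : Ω) : (t, cls R t x) ∈ verts R := by
  classical exact mem_image.2 ⟨(t, x), mem_univ _, rfl⟩

/-- The vertex of a type at a chamber. -/
noncomputable def vtx (t : Fin n) (x : Ω) : Fin (verts R).card :=
  (verts R).equivFin ⟨(t, cls R t x), mem_verts R t x⟩

/-- The face of a set of types at a chamber. -/
noncomputable def face (T : Finset (Fin n)) (x : Ω) : Finset (Fin (verts R).card) :=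
  T.image fun t => vtx R t x

/-- The facets. -/
noncomputable def facets (d : ℕ) : Finset (Finset (Fin (verts R).card)) :=
  (((univ : Finset (Fin n)).powersetCard (d + 1)) ×ˢ (univ : Finset Ω)).image
    fun a => face R a.1 a.2

theorem face_mem_facets {d : ℕ} {T : Finset (Fin n)} (hT : T.card = d + 1) (x : Ω) :
    face R T x ∈ facets R d :=
  mem_image.2 ⟨(T, x), mem_product.2 ⟨mem_powersetCard.2 ⟨subset_univ _, hT⟩, mem_univ _⟩, rfl⟩

theorem exists_of_mem_facets {d : ℕ} {τ : Finset (Fin (verts R).card)} (h : τ ∈ facets R d) :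
    ∃ T x, T.card = d + 1 ∧ face R T x = τ := by
  obtain ⟨⟨T, x⟩, ha, rfl⟩ := mem_image.1 h
  exact ⟨T, x, (mem_powersetCard.1 (mem_product.1 ha).1).2, rfl⟩

theorem vtx_surjective (v : Fin (verts R).card) : ∃ t x, vtx R t x = v := by
  classical
  obtain ⟨⟨t, x⟩, -, ha⟩ := mem_image.1 ((verts R).equivFin.symm v).2
  refine ⟨t, x, ?_⟩
  rw [vtx, ← Equiv.eq_symm_apply]
  exact Subtype.ext ha

variable {R} {B : ℕ} (hR : GoodSys R B)
include hR

theorem cls_eq_iff {t : Fin n} {x y : Ω} : cls R t x = cls R t y ↔ R {t} x y := by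
  refine ⟨fun h => ?_, fun h => Finset.ext fun z => ?_⟩
  · rw [← mem_cls R, h, mem_cls R]
    exact (hR.equiv t).refl y
  · rw [mem_cls, mem_cls]
    exact ⟨(hR.equiv t).trans ((hR.equiv t).symm h), (hR.equiv t).trans h⟩

theorem vtx_eq_iff {t t' : Fin n} {x y : Ω} : vtx R t x = vtx R t' y ↔ t = t' ∧ R {t} x y := by
  rw [vtx, vtx, EmbeddingLike.apply_eq_iff_eq, Subtype.mk.injEq, Prod.mk.injEq]
  refine and_congr_right fun h => ?_
  subst h
  exact cls_eq_iff hR

theorem vtx_mem_face {t : Fin n} {T : Finset (Fin n)} {x y : Ω} :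
    vtx R t x ∈ face R T y ↔ t ∈ T ∧ R {t} x y := by
  simp only [face, mem_image]
  refine ⟨fun ⟨t', ht', he⟩ => ?_, fun ⟨ht, h⟩ => ⟨t, ht, (vtx_eq_iff hR).2 ⟨rfl, (hR.equiv t).symm h⟩⟩⟩
  obtain ⟨rfl, h⟩ := (vtx_eq_iff hR).1 he
  exact ⟨ht', (hR.equiv t').symm h⟩

theorem card_face (T : Finset (Fin n)) (x : Ω) : (face R T x).card = T.card :=
  card_image_of_injOn fun _ _ _ _ h => ((vtx_eq_iff hR).1 h).1

theorem face_subset {T T' : Finset (Fin n)} {x y : Ω} :
    face R T x ⊆ face R T' y ↔ T ⊆ T' ∧ R T x y := by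
  rw [hR.inter]
  refine ⟨fun h => ⟨fun t ht => ?_, fun t ht => ?_⟩, fun h v hv => ?_⟩
  · exact ((vtx_mem_face hR).1 (h (mem_image_of_mem _ ht))).1
  · exact ((vtx_mem_face hR).1 (h (mem_image_of_mem _ ht))).2
  · obtain ⟨t, ht, rfl⟩ := mem_image.1 hv
    exact (vtx_mem_face hR).2 ⟨h.1 ht, h.2 t ht⟩

theorem face_eq_iff {T T' : Finset (Fin n)} {x y : Ω} :
    face R T x = face R T' y ↔ T = T' ∧ R T x y := by
  refine ⟨fun h => ?_, fun ⟨h1, h2⟩ => ?_⟩
  · obtain ⟨h1, h2⟩ := (face_subset hR).1 h.le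
    exact ⟨subset_antisymm h1 ((face_subset hR).1 h.ge).1, h2⟩
  · subst h1
    refine subset_antisymm ((face_subset hR).2 ⟨subset_rfl, h2⟩) ((face_subset hR).2 ⟨subset_rfl, ?_⟩)
    rw [hR.inter] at h2 ⊢
    exact fun t ht => (hR.equiv t).symm (h2 t ht)

theorem R_refl (T : Finset (Fin n)) (x : Ω) : R T x x := by
  rw [hR.inter]
  exact fun t _ => (hR.equiv t).refl x

theorem small_of_nonempty {T : Finset (Fin n)} (hT : T.Nonempty) (x : Ω) :
    {y | R T x y}.ncard ≤ B := by
  obtain ⟨t, ht⟩ := hT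
  exact (Set.ncard_le_ncard (fun y (hy : R T x y) => ((hR.inter T x y).1 hy) t ht)).trans
    (hR.small t x)

variable {d : ℕ} (hn : d + 1 ≤ n)
include hn

theorem face_mem_faces {i : ℕ} (hi : i ≤ d) {T : Finset (Fin n)} (hT : T.card = i + 1) (x : Ω) :
    face R T x ∈ faces (facets R d) i := by
  obtain ⟨T', hsub, hT'⟩ := Finset.exists_superset_card_eq (s := T) (n := d + 1)
    (by omega) (by simpa using hn)
  exact mem_filter.2 ⟨mem_powersetCard.2 ⟨subset_univ _, by rw [card_face hR, hT]⟩,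
    face R T' x, face_mem_facets R hT' x, (face_subset hR).2 ⟨hsub, R_refl hR T x⟩⟩

omit hn in
theorem exists_of_mem_faces {i : ℕ} {σ : Finset (Fin (verts R).card)}
    (h : σ ∈ faces (facets R d) i) : ∃ T x, T.card = i + 1 ∧ face R T x = σ := by
  obtain ⟨h1, τ, hτ, hsub⟩ := mem_filter.1 h
  obtain ⟨T', x, -, rfl⟩ := exists_of_mem_facets R hτ
  obtain ⟨T, -, hT⟩ := Finset.subset_image_iff.1 hsub
  refine ⟨T, x, ?_, hT⟩
  rw [← card_face hR T x, show face R T x = σ from hT]
  exact (mem_powersetCard.1 h1).2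

theorem isPure_facets : IsPure (facets R d) d := by
  refine ⟨fun τ hτ => ?_, fun v => ?_⟩
  · obtain ⟨T, x, hT, rfl⟩ := exists_of_mem_facets R hτ
    rw [card_face hR, hT]
  · obtain ⟨t, x, rfl⟩ := vtx_surjective R v
    obtain ⟨T, hsub, hT⟩ := Finset.exists_superset_card_eq (s := {t}) (n := d + 1)
      (by simp) (by simpa using hn)
    exact ⟨face R T x, face_mem_facets R hT x,
      (vtx_mem_face hR).2 ⟨hsub (mem_singleton_self t), (hR.equiv t).refl x⟩⟩

omit hn in
theorem degree_facets : DegreeAtMost (facets R d) (2 ^ n * B) := by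
  classical
  intro v
  obtain ⟨t, x, rfl⟩ := vtx_surjective R v
  refine (card_le_card (t := (((univ : Finset (Fin n)).powerset) ×ˢ cls R t x).image
    fun a => face R a.1 a.2) fun τ hτ => ?_).trans (card_image_le.trans ?_)
  · obtain ⟨hτ, hv⟩ := mem_filter.1 hτ
    obtain ⟨T, y, -, rfl⟩ := exists_of_mem_facets R hτ
    exact mem_image.2 ⟨(T, y), mem_product.2
      ⟨mem_powerset.2 (subset_univ _), (mem_cls R).2 ((vtx_mem_face hR).1 hv).2⟩, rfl⟩
  · rw [card_product, card_powerset, card_univ, Fintype.card_fin]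
    refine Nat.mul_le_mul le_rfl (le_trans (le_of_eq ?_) (hR.small t x))
    rw [← Set.ncard_coe_finset]
    congr 1
    ext y
    simp [mem_cls]

omit hn in
theorem card_le_verts (hn0 : 0 < n) : Fintype.card Ω ≤ B * (verts R).card := by
  classical
  have h := Finset.card_le_mul_card_image (s := (univ : Finset Ω))
    (f := fun x => vtx R ⟨0, hn0⟩ x) B fun v hv => ?_
  · exact h.trans (Nat.mul_le_mul le_rfl ((card_le_univ _).trans (by simp)))
  · obtain ⟨x, -, rfl⟩ := mem_image.1 hv
    refine le_trans (le_of_eq ?_) (hR.small ⟨0, hn0⟩ x)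
    rw [← Set.ncard_coe_finset]
    congr 1
    ext y
    simp only [coe_filter, mem_univ, true_and, Set.mem_ofPred_eq, vtx_eq_iff hR]
    exact ⟨fun h => (hR.equiv _).symm h, fun h => (hR.equiv _).symm h⟩

end Vale.Agent.P067.Bridge
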